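import Vale.Agent.P272.F.K.Peak

/-! P270: peak sections of a positive line bundle (the files `P272/F/K/Wt0 .. Peak` for a cocycle). -/

open Metric Set Filter Topology MeasureTheory
open scoped ContDiff ENNReal ComplexConjugate

noncomputable section

namespace Vale.Agent.P270B

open Vale.Agent.P272 Vale.Agent.P272.K

variable {n : ℕ} {X : Type} [TopologicalSpace X]

/-- A line bundle on the atlas with a metric of positive curvature. -/
structure Cc (A : Atl n X) where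
  t : Fin A.N → Fin A.N → X → ℂ
  an : ∀ {i j l x}, x ∈ (A.e i).source → x ∈ (A.e j).source → x ∈ (A.e l).source →
    DifferentiableAt ℂ (t i j ∘ (A.e l).symm) (A.e l x)
  coc : ∀ {i j l x}, x ∈ (A.e i).source → x ∈ (A.e j).source → x ∈ (A.e l).source →
    t i j x * t j l x = t i l x
  one : ∀ {i x}, x ∈ (A.e i).source → t i i x = 1
  h : Fin A.N → E n → ℝ
  sm : ∀ j, ContDiffOn ℝ ∞ (h j) (A.e j).target
  cmp : ∀ j k x, x ∈ (A.e j).source → x ∈ (A.e k).source →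
    h k (A.e k x) = h j (A.e j x) + Real.log (‖t j k x‖ ^ 2)
  pos : ∀ j, ∀ y ∈ (A.e j).target, ∀ a, a ≠ 0 → 0 < levi (h j) y a
  v : A.LV
  le : ∀ j, ∀ y ∈ (A.e j).target, ∀ a, levi (v.l j) y a ≤ 2 * levi (h j) y a

variable {A : Atl n X}

/-- A holomorphic section of a power. -/
structure Cc.Sec (L : Cc A) (m : ℕ) where
  s : Fin A.N → E n → ℂ
  hol : ∀ j, DifferentiableOn ℂ (s j) (A.e j).target
  cmp : ∀ j k x, x ∈ (A.e j).source → x ∈ (A.e k).source →
    s k (A.e k x) = s j (A.e j x) * L.t j k x ^ m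

/-- The transition functions in the twisted frames. -/
def gtw {C : Cv n X} (L : Cc A) (k : Fin C.N → Fin A.N) (Q : Fin C.N → E n → ℂ) (m : ℕ)
    (i j : Fin C.N) (x : X) : ℂ :=
  L.t (k i) (k j) x ^ m * Complex.exp (m * Q i (C.e i x) - m * Q j (C.e j x))

/-- The weights in these frames. -/
def gww {C : Cv n X} (L : Cc A) (k : Fin C.N → Fin A.N) (Q : Fin C.N → E n → ℂ) (m : ℕ)
    (i : Fin C.N) (y : E n) : ℝ := (m * L.h (k i) y - 1 * L.v.l (k i) y) - 2 * m * (Q i y).re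

theorem Cc.ne (L : Cc A) {i j : Fin A.N} {x : X} (hi : x ∈ (A.e i).source)
    (hj : x ∈ (A.e j).source) : L.t i j x ≠ 0 := fun h => by
  have h1 := L.coc hi hj hi
  rw [h, zero_mul, L.one hi] at h1
  exact zero_ne_one h1

variable {C : Cv n X} {k : Fin C.N → Fin A.N} {Q f : Fin C.N → E n → ℂ} {m : ℕ}

theorem gwt_pt (L : Cc A) (hk : C.On A k) {i j : Fin C.N} {x : X} (hi : x ∈ C.U i)
    (hj : x ∈ C.U j) :
    ‖gtw L k Q m i j x‖ ^ 2 * Real.exp (-gww L k Q m j (C.e j x)) =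
      ‖dt A (k i) (k j) x‖ ^ 2 * Real.exp (-gww L k Q m i (C.e i x)) := by
  have hi' : x ∈ (A.e (k i)).source := by
    rw [← hk i]
    exact hi.1
  have hj' : x ∈ (A.e (k j)).source := by
    rw [← hk j]
    exact hj.1
  have hd : 0 < ‖dt A (k i) (k j) x‖ ^ 2 := pow_pos (norm_pos_iff.2 (dt_ne hi' hj')) 2
  have hd' : 0 < ‖L.t (k i) (k j) x‖ ^ 2 := pow_pos (norm_pos_iff.2 (L.ne hi' hj')) 2
  have hc := L.v.cmp (k i) (k j) x hi' hj'
  have hc' := L.cmp (k i) (k j) x hi' hj'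
  rw [← hk i, ← hk j] at hc hc'
  change _ = _ + Real.log (‖dt A (k i) (k j) x‖ ^ 2) at hc
  unfold gtw gww
  rw [hc, hc', norm_mul, norm_pow, Complex.norm_exp, mul_pow, ← pow_mul, mul_comm m 2, pow_mul]
  generalize ‖dt A (k i) (k j) x‖ ^ 2 = D at hd ⊢
  generalize ‖L.t (k i) (k j) x‖ ^ 2 = D' at hd' ⊢
  obtain ⟨t, rfl⟩ : ∃ t, D = Real.exp t := ⟨Real.log D, (Real.exp_log hd).symm⟩
  obtain ⟨t', rfl⟩ : ∃ t, D' = Real.exp t := ⟨Real.log D', (Real.exp_log hd').symm⟩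
  rw [Real.log_exp, Real.log_exp, ← Real.exp_nat_mul, ← Real.exp_nat_mul, ← Real.exp_add,
    ← Real.exp_add, ← Real.exp_add]
  refine congrArg Real.exp ?_
  simp only [Complex.sub_re, Complex.mul_re, Complex.natCast_re, Complex.natCast_im, zero_mul,
    sub_zero]
  push_cast
  ring

theorem gwt_cv (L : Cc A) (hk : C.On A k) (i j : Fin C.N) (f : X → ℂ) :
    nq (gww L k Q m j) (C.ov i j) ((fun x => gtw L k Q m i j x * f x) ∘ (C.e j).symm) ≤
      nq (gww L k Q m i) (C.ov j i) (f ∘ (C.e i).symm) := by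
  have hS := (ov_open C i j).measurableSet
  have hU : ∀ y ∈ C.ov i j, (C.e j).symm y ∈ C.U j ∧ C.e j ((C.e j).symm y) = y := fun y hy =>
    ⟨symm_mem_U hy.1, (C.e j).right_inv (bl_sub C j hy.1)⟩
  have hT : ∀ y ∈ C.ov i j, DifferentiableAt ℂ (C.e i ∘ (C.e j).symm) y := fun y hy => by
    have h := (C.an i j _ (show (C.e j).symm y ∈ C.U i from hy.2).1 (hU y hy).1.1).differentiableAt
    rwa [(hU y hy).2] at h
  have hI : InjOn (C.e i ∘ (C.e j).symm) (C.ov i j) := fun y hy z hz h => by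
    have h2 := (C.e i).injOn (show (C.e j).symm y ∈ C.U i from hy.2).1
      (show (C.e j).symm z ∈ C.U i from hz.2).1 h
    rw [← (hU y hy).2, h2, (hU z hz).2]
  have hsub : (C.e i ∘ (C.e j).symm) '' C.ov i j ⊆ C.ov j i := by
    rintro _ ⟨y, hy, rfl⟩
    exact mem_ov (hU y hy).1 hy.2
  unfold nq
  refine le_trans (le_of_eq ?_) (lintegral_mono_set hsub)
  rw [cv_flat hS hT hI]
  refine setLIntegral_congr_fun hS fun y hy => ?_
  have hyi : (C.e j).symm y ∈ C.U i := hy.2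
  have h := gwt_pt (Q := Q) (m := m) L hk hyi (hU y hy).1
  have hd : (fderiv ℂ (C.e i ∘ (C.e j).symm) y).det = dt A (k i) (k j) ((C.e j).symm y) := by
    unfold dt Atl.tr
    rw [← hk i, ← hk j, (hU y hy).2]
  rw [(hU y hy).2] at h
  simp only [Function.comp_apply]
  rw [← ENNReal.ofReal_mul (by positivity), hd, (C.e i).left_inv hyi.1, norm_mul, mul_pow]
  refine congrArg ENNReal.ofReal ?_
  linear_combination ‖f ((C.e j).symm y)‖ ^ 2 * h


theorem gexists_lb (L : Cc A) (hk : C.On A k) (hQ : ∀ i, Differentiable ℂ (Q i)) {κ : ℝ}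
    (hκ : ∀ i, ∀ y ∈ C.bl i, ∀ a, κ * ‖a‖ ^ 2 ≤ levi (L.h (k i)) y a) (hm : 2 ≤ m) :
    ∃ Λ : Lb C (((m : ℝ) - 2) * κ), Λ.t = gtw L k Q m ∧ Λ.φ = gww L k Q m := by
  have hs : ∀ i x, x ∈ C.U i → x ∈ (A.e (k i)).source := fun i x hx => by
    rw [← hk i]
    exact hx.1
  have hA : ∀ i y, AnalyticAt ℂ (Q i) y := fun i y =>
    P278.osgood_at (Eventually.of_forall (hQ i))
  have hR : ∀ i y, ContDiffAt ℝ ∞ (fun w => (Q i w).re) y := fun i y =>
    Complex.reCLM.contDiff.contDiffAt.comp y ((hA i y).contDiffAt.restrict_scalars ℝ)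
  have hT : ∀ i, ∀ y ∈ C.bl i, y ∈ (A.e (k i)).target := fun i y hy => by
    rw [← hk i]
    exact bl_sub C i hy
  have hL : ∀ i, ∀ y ∈ C.bl i, ContDiffAt ℝ ∞ (L.v.l (k i)) y := fun i y hy =>
    (L.v.sm (k i)).contDiffAt ((A.e (k i)).open_target.mem_nhds (hT i y hy))
  have hH : ∀ i, ∀ y ∈ C.bl i, ContDiffAt ℝ ∞ (L.h (k i)) y := fun i y hy =>
    (L.sm (k i)).contDiffAt ((A.e (k i)).open_target.mem_nhds (hT i y hy))
  have hS : ∀ i, ∀ y ∈ C.bl i, ContDiffAt ℝ ∞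
      (fun y => (m : ℝ) * L.h (k i) y - 1 * L.v.l (k i) y) y := fun i y hy =>
    (contDiffAt_const.mul (hH i y hy)).sub (contDiffAt_const.mul (hL i y hy))
  refine ⟨⟨gtw L k Q m, fun i j y hy => DifferentiableAt.differentiableWithinAt ?_,
    fun i j l x hi hj hl => ?_, fun i x hi => ?_, gww L k Q m,
    fun i y hy => ContDiffAt.contDiffWithinAt ?_, fun i y hy a => ?_, gwt_cv L hk⟩, rfl, rfl⟩
  · have hj := symm_mem_U hy.1
    have e : C.e j ((C.e j).symm y) = y := (C.e j).right_inv (bl_sub C j hy.1)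
    have h1 := L.an (hs i _ hy.2) (hs j _ hj) (hs j _ hj)
    have h2 := (C.an i j _ hy.2.1 hj.1).differentiableAt
    have h3 := (C.an j j _ hj.1 hj.1).differentiableAt
    rw [← hk j, e] at h1
    rw [e] at h2 h3
    exact (h1.pow m).mul
      (((((hQ i _).comp y h2).const_mul (m : ℂ)).sub (((hQ j _).comp y h3).const_mul (m : ℂ))).cexp)
  · unfold gtw
    rw [← L.coc (hs i x hi) (hs j x hj) (hs l x hl), mul_pow, mul_mul_mul_comm, ← Complex.exp_add,
      sub_add_sub_cancel]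
  · unfold gtw
    rw [L.one (hs i x hi), one_pow, sub_self, Complex.exp_zero, mul_one]
  · exact (hS i y hy).sub (contDiffAt_const.mul (hR i y))
  · have h1 := levi_lin ((hS i y hy).of_le ENat.LEInfty.out) ((hR i y).of_le ENat.LEInfty.out)
      1 (2 * m) a
    have h3 := levi_lin ((hH i y hy).of_le ENat.LEInfty.out) ((hL i y hy).of_le ENat.LEInfty.out)
      m 1 a
    rw [levi_re (hA i y), mul_zero, sub_zero, h3] at h1
    simp only [one_mul] at h1
    have h2 : (0 : ℝ) ≤ (m : ℝ) - 2 := sub_nonneg.2 (by exact_mod_cast hm)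
    have h4 := mul_le_mul_of_nonneg_left (hκ i y hy a) h2
    have h5 := L.le (k i) y (hT i y hy) a
    have h6 : gww L k Q m i = fun z => (m * L.h (k i) z - L.v.l (k i) z) - 2 * m * (Q i z).re := by
      funext z
      simp only [gww, one_mul]
    rw [h6, h1]
    linarith


theorem gglue_diff (L : Cc A) (hk : C.On A k) (hQ : ∀ i, Differentiable ℂ (Q i)) {f : X → ℂ} {i : Fin C.N}
    (hf : C.Hol i f) {j : Fin A.N} {x : X} (hi : x ∈ C.U i) (hj : x ∈ (A.e j).source) :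
    DifferentiableAt ℂ (fun y => f ((A.e j).symm y) *
      Complex.exp (m * Q i (C.e i ((A.e j).symm y))) * L.t (k i) j ((A.e j).symm y) ^ m)
      (A.e j x) := by
  have h1 : DifferentiableAt ℂ (C.e i ∘ (A.e j).symm) (A.e j x) := by
    rw [hk i]
    exact (an_tr (gluex_src hk hi) hj).differentiableAt
  have e1 : (C.e i ∘ (A.e j).symm) (A.e j x) = C.e i x := by
    rw [Function.comp_apply, (A.e j).left_inv hj]
  have h2 : DifferentiableAt ℂ (f ∘ (C.e i).symm) ((C.e i ∘ (A.e j).symm) (A.e j x)) := by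
    rw [e1]
    exact hf.differentiableAt (isOpen_ball.mem_nhds hi.2)
  have h3 : DifferentiableAt ℂ (fun y => f ((A.e j).symm y)) (A.e j x) := by
    refine (h2.comp _ h1).congr_of_eventuallyEq ?_
    have c : ContinuousAt (A.e j).symm (A.e j x) :=
      (A.e j).continuousAt_symm ((A.e j).map_source hj)
    have hm : (C.e i).source ∈ 𝓝 ((A.e j).symm (A.e j x)) := by
      rw [(A.e j).left_inv hj]
      exact (C.e i).open_source.mem_nhds hi.1
    filter_upwards [c.eventually hm] with y hy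
    simp only [Function.comp_apply]
    rw [(C.e i).left_inv hy]
  have h4 : DifferentiableAt ℂ (fun y => Q i (C.e i ((A.e j).symm y))) (A.e j x) :=
    (hQ i _).comp (A.e j x) h1
  have h5 : DifferentiableAt ℂ (fun y => L.t (k i) j ((A.e j).symm y)) (A.e j x) :=
    L.an (gluex_src hk hi) hj hj
  exact (h3.fun_mul (h4.const_mul _).cexp).fun_mul (h5.fun_pow m)

theorem gglue (L : Cc A) (hk : C.On A k) (hQ : ∀ i, Differentiable ℂ (Q i)) {s : Fin C.N → X → ℂ}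
    (hs : ∀ i, C.Hol i (s i))
    (hc : ∀ i j x, x ∈ C.U i → x ∈ C.U j → s j x = gtw L k Q m i j x * s i x) :
    ∃ σ : L.Sec m, ∀ i, ∀ y ∈ C.bl i,
      σ.s (k i) y = s i ((C.e i).symm y) * Complex.exp (m * Q i y) := by
  choose I hI using exists_U C
  have ind : ∀ i i' j x, x ∈ C.U i → x ∈ C.U i' → x ∈ (A.e j).source →
      s i' x * Complex.exp (m * Q i' (C.e i' x)) * L.t (k i') j x ^ m =
        s i x * Complex.exp (m * Q i (C.e i x)) * L.t (k i) j x ^ m := by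
    intro i i' j x hi hi' hj
    have h0 := Complex.exp_ne_zero (m * Q i' (C.e i' x))
    rw [hc i i' x hi hi', ← L.coc (gluex_src hk hi) (gluex_src hk hi') hj, mul_pow, gtw,
      Complex.exp_sub]
    field_simp
  refine ⟨⟨fun j y => s (I ((A.e j).symm y)) ((A.e j).symm y) *
    Complex.exp (m * Q (I ((A.e j).symm y)) (C.e (I ((A.e j).symm y)) ((A.e j).symm y))) *
      L.t (k (I ((A.e j).symm y))) j ((A.e j).symm y) ^ m, fun j y hy => ?_,
    fun j l x hj hl => ?_⟩, fun i y hy => ?_⟩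
  · have hx := (A.e j).map_target hy
    have h1 := gglue_diff (m := m) L hk hQ (hs (I ((A.e j).symm y))) (hI _) hx
    rw [(A.e j).right_inv hy] at h1
    refine (h1.congr_of_eventuallyEq ?_).differentiableWithinAt
    filter_upwards [(A.e j).open_target.mem_nhds hy, ((A.e j).continuousAt_symm hy).eventually
      ((U_open C _).mem_nhds (hI ((A.e j).symm y)))] with w h2 h3
    exact ind _ _ j _ h3 (hI _) ((A.e j).map_target h2)
  · simp only [(A.e j).left_inv hj, (A.e l).left_inv hl]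
    rw [← L.coc (gluex_src hk (hI x)) hj hl, mul_pow, ← mul_assoc]
  · have h1 := symm_mem_U hy
    have h2 := (C.e i).right_inv (bl_sub C i hy)
    have h3 := ind i _ (k i) _ h1 (hI _) (gluex_src hk h1)
    rw [L.one (gluex_src hk h1), one_pow, mul_one, h2] at h3
    simp only [← hk i]
    exact h3


theorem gpeak0 (L : Cc A) (hk : C.On A k) (hQ : ∀ i, Differentiable ℂ (Q i))
    (hf : ∀ i, Differentiable ℂ (f i)) {α β ρ κ K V : ℝ} (hρ : 0 < ρ) (hκ0 : 0 < κ)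
    (hκ : ∀ i, ∀ y ∈ C.bl i, ∀ a, κ * ‖a‖ ^ 2 ≤ levi (L.h (k i)) y a)
    (hK : ∀ i, ∀ y ∈ C.bl i, |L.v.l (k i) y| ≤ K ∧ ‖f i y‖ ≤ K) (hV0 : 0 ≤ V)
    (hV : ∀ i, lam n (C.bl i) ≤ ENNReal.ofReal V) {T : Fin C.N → Set (E n)}
    (h1 : ∀ i j, i ≠ j → ∀ y ∈ C.ov i j, f j y ≠ 0 → α ≤ L.h (k j) y - 2 * (Q j y).re)
    (h2 : ∀ j, ∀ y ∈ T j, closedBall y ρ ⊆ C.bl j ∧
      ∀ w ∈ ball y ρ, L.h (k j) w - 2 * (Q j w).re ≤ β) {m : ℕ} (hm : 3 ≤ m)
    (hN : 48 * (C.N : ℝ) ^ 2 * C.B ^ 2 ≤ ((m : ℝ) - 2) * κ) :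
    ∃ σ : L.Sec m, ∀ j, ∀ y ∈ T j,
      ‖σ.s (k j) y * Complex.exp (-(m * Q j y)) - f j y‖ ^ 2 * mv n ρ ≤
        64 * (C.N : ℝ) ^ 2 * K ^ 2 * V * Real.exp (2 * K) * Real.exp (-(m * (α - β))) := by
  obtain ⟨Λ, ht, hφ⟩ := gexists_lb (m := m) L hk hQ hκ (by omega)
  have hm' : (3 : ℝ) ≤ m := by exact_mod_cast hm
  have hFy : ∀ j, ∀ y ∈ C.bl j, f j (C.e j ((C.e j).symm y)) = f j y := fun j y hy => by
    rw [(C.e j).right_inv (bl_sub C j hy)]
  have hF : ∀ j, C.Hol j fun x => f j (C.e j x) := fun j =>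
    (hf j).differentiableOn.congr (hFy j)
  have hD0 : 0 ≤ K ^ 2 * Real.exp (K - m * α) := by positivity
  have hd := dd_le Λ hF (D := ENNReal.ofReal (K ^ 2 * Real.exp (K - m * α) * V)) fun i j hij => by
    refine (nq_le (D := K ^ 2 * Real.exp (K - m * α)) (ov_open C i j).measurableSet
      fun y hy => ?_).trans ?_
    · rw [Function.comp_apply, hFy j y hy.1, hφ]
      by_cases h0 : f j y = 0
      · simpa [h0] using hD0
      · obtain ⟨a1, a2⟩ := hK j y hy.1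
        have a3 := mul_le_mul_of_nonneg_left (h1 i j hij y hy h0) (Nat.cast_nonneg m)
        have a4 := (abs_le.1 a1).2
        refine mul_le_mul (pow_le_pow_left₀ (norm_nonneg _) a2 2) (Real.exp_le_exp.2 ?_)
          (Real.exp_pos _).le (sq_nonneg _)
        rw [gww]
        linarith
    · rw [ENNReal.ofReal_mul hD0]
      gcongr
      exact (measure_mono inter_subset_left).trans (hV j)
  have e1 : 4 * (C.N : ℝ≥0∞) ^ 2 * ENNReal.ofReal (K ^ 2 * Real.exp (K - m * α) * V) =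
      ENNReal.ofReal (4 * (C.N : ℝ) ^ 2 * (K ^ 2 * Real.exp (K - m * α) * V)) := by
    rw [ENNReal.ofReal_mul (p := 4 * (C.N : ℝ) ^ 2) (by positivity),
      ENNReal.ofReal_mul (p := 4) (by norm_num), ENNReal.ofReal_pow (Nat.cast_nonneg _),
      ENNReal.ofReal_natCast, ENNReal.ofReal_ofNat]
  rw [e1] at hd
  obtain ⟨s, hs, hc, hb⟩ := core Λ (mul_pos (by linarith) hκ0) hN hF (by positivity) hd
  rw [ht] at hc
  obtain ⟨σ, hσ⟩ := gglue L hk hQ hs hc
  refine ⟨σ, fun j y hy => ?_⟩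
  obtain ⟨b1, b2⟩ := h2 j y hy
  have hyb := b1 (mem_closedBall_self hρ.le)
  have key := hb j y ρ (m * β + K) hρ b1 fun w hw => by
    have a3 := mul_le_mul_of_nonneg_left (b2 w hw) (Nat.cast_nonneg m)
    have a4 := (abs_le.1 (hK j w (b1 (ball_subset_closedBall hw))).1).1
    rw [hφ, gww]
    linarith
  rw [hFy j y hyb] at key
  rw [hσ j y hyb, mul_assoc, ← Complex.exp_add, add_neg_cancel, Complex.exp_zero, mul_one]
  refine key.trans (le_of_eq ?_)
  have e2 : Real.exp (m * β + K) * Real.exp (K - m * α) =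
      Real.exp (2 * K) * Real.exp (-(m * (α - β))) := by
    rw [← Real.exp_add, ← Real.exp_add]
    congr 1
    ring
  linear_combination (64 * (C.N : ℝ) ^ 2 * K ^ 2 * V) * e2


theorem gpeak1 (L : Cc A) (hk : C.On A k) (hQ : ∀ i, Differentiable ℂ (Q i))
    (hf : ∀ i, Differentiable ℂ (f i)) {α β ρ : ℝ} (hαβ : β < α) (hρ : 0 < ρ)
    {T : Fin C.N → Set (E n)}
    (h1 : ∀ i j, i ≠ j → ∀ y ∈ C.ov i j, f j y ≠ 0 → α ≤ L.h (k j) y - 2 * (Q j y).re)
    (h2 : ∀ j, ∀ y ∈ T j, closedBall y ρ ⊆ C.bl j ∧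
      ∀ w ∈ ball y ρ, L.h (k j) w - 2 * (Q j w).re ≤ β) {ε : ℝ} (hε : 0 < ε) :
    ∀ᶠ m : ℕ in atTop, ∃ σ : L.Sec m, ∀ j, ∀ y ∈ T j,
      ‖σ.s (k j) y * Complex.exp (-(m * Q j y)) - f j y‖ ≤ ε := by
  have hs : ∀ i, closedBall (C.c i) (C.r i) ⊆ (A.e (k i)).target := fun i => hk i ▸ C.sub i
  choose κ' p1 p2 using fun i => levi_unif (isCompact_closedBall (C.c i) (C.r i))
    (A.e (k i)).open_target (hs i) (L.sm (k i)) fun y hy => L.pos (k i) y (hs i hy)
  have p3 : ∀ᶠ t in 𝓝[>] (0 : ℝ), ∀ i, t < κ' i :=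
    eventually_all.2 fun i => nhdsWithin_le_nhds (gt_mem_nhds (p1 i))
  obtain ⟨κ, p4, hκ0⟩ := (p3.and self_mem_nhdsWithin).exists
  have hκ0 : 0 < κ := hκ0
  choose K1 q1 using fun i => (isCompact_closedBall (C.c i) (C.r i)).exists_bound_of_continuousOn
    ((L.v.sm (k i)).continuousOn.mono (hs i))
  choose K2 q2 using fun i => (isCompact_closedBall (C.c i) (C.r i)).exists_bound_of_continuousOn
    (hf i).continuous.continuousOn
  obtain ⟨K, q3⟩ := Finite.exists_le fun i => max (K1 i) (K2 i)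
  have hV0 : 0 ≤ ∑ i, (lam n (C.bl i)).toReal := Finset.sum_nonneg fun _ _ => ENNReal.toReal_nonneg
  have hV : ∀ i, lam n (C.bl i) ≤ ENNReal.ofReal (∑ i, (lam n (C.bl i)).toReal) := fun i =>
    (ENNReal.le_ofReal_iff_toReal_le (lam_ball _ _) hV0).2
      (Finset.single_le_sum (f := fun i => (lam n (C.bl i)).toReal)
        (fun _ _ => ENNReal.toReal_nonneg) (Finset.mem_univ i))
  have hm := mv_pos (n := n) hρ
  have t1 : Tendsto (fun m : ℕ => ((m : ℝ) - 2) * κ) atTop atTop :=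
    (tendsto_atTop_add_const_right _ (-2) tendsto_natCast_atTop_atTop).atTop_mul_const hκ0
  have t2 := (Real.tendsto_exp_neg_atTop_nhds_zero.comp
    (tendsto_natCast_atTop_atTop.atTop_mul_const (sub_pos.2 hαβ))).const_mul
    (64 * (C.N : ℝ) ^ 2 * K ^ 2 * (∑ i, (lam n (C.bl i)).toReal) * Real.exp (2 * K))
  rw [mul_zero] at t2
  filter_upwards [eventually_ge_atTop 3, t1.eventually_ge_atTop (48 * (C.N : ℝ) ^ 2 * C.B ^ 2),
    t2.eventually (ge_mem_nhds (mul_pos (pow_pos hε 2) hm))] with m m1 m2 m3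
  obtain ⟨σ, hσ⟩ := gpeak0 L hk hQ hf hρ hκ0 (K := K)
    (fun i y hy a => (mul_le_mul_of_nonneg_right (p4 i).le (sq_nonneg _)).trans
      (p2 i y (ball_subset_closedBall hy) a))
    (fun i y hy => ⟨(q1 i y (ball_subset_closedBall hy)).trans ((le_max_left _ _).trans (q3 i)),
      (q2 i y (ball_subset_closedBall hy)).trans ((le_max_right _ _).trans (q3 i))⟩)
    hV0 hV h1 h2 m1 m2
  exact ⟨σ, fun j y hy => (abs_le_of_sq_le_sq'
    (le_of_mul_le_mul_right ((hσ j y hy).trans m3) hm) hε.le).2⟩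


theorem gpeak [T2Space X] [CompactSpace X] (L : Cc A) {q : ℕ}
    {pt : Fin q → X} (hp : Function.Injective pt) :
    ∃ (ρ : ℝ) (P : Fin q → E n → ℂ), 0 < ρ ∧ ρ ≤ 1 ∧ (∀ l, Differentiable ℂ (P l)) ∧
      ∀ f : Fin q → E n → ℂ, (∀ l, Differentiable ℂ (f l)) → ∀ ε : ℝ, 0 < ε →
        ∀ᶠ m : ℕ in atTop, ∃ σ : L.Sec m, ∀ l, ∀ y ∈ ball (ct A (pt l)) ρ,
          ‖σ.s (A.ch (pt l)) y * Complex.exp (-(m * P l y)) - f l y‖ ≤ ε := by
  have hct : ∀ l, ct A (pt l) ∈ (A.e (A.ch (pt l))).target := fun l =>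
    (A.e _).map_source (A.cov (pt l)).choose_spec.1
  choose P R c D hP hR hc hD hT using fun l =>
    tay ((L.sm _).contDiffAt ((A.e _).open_target.mem_nhds (hct l))) (L.pos _ _ (hct l))
  obtain ⟨C, k, ι, δ, hk, hδ, hδ1, hι, hl, hov⟩ := exists_cov A hp hR
  obtain ⟨c₀, hc₀, hcc⟩ : ∃ c₀ : ℝ, 0 < c₀ ∧ ∀ l, c₀ ≤ c l := by
    obtain ⟨a, h1, h2⟩ := ((eventually_all.2 fun l => Ioo_mem_nhdsGT (hc l)).and
      (self_mem_nhdsWithin (s := Ioi (0 : ℝ)))).exists
    exact ⟨a, h2, fun l => (h1 l).2.le⟩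
  have hβ : 0 < c₀ * δ ^ 2 / 2 := by positivity
  obtain ⟨ρ, ⟨hρ, hρδ⟩, hρD⟩ : ∃ ρ : ℝ, ρ ∈ Ioo 0 (δ / 2) ∧
      ∀ l, D l * (2 * ρ) ^ 2 < c₀ * δ ^ 2 / 2 := by
    refine (Eventually.and (Ioo_mem_nhdsGT (half_pos hδ)) (eventually_all.2 fun l => ?_)).exists
    have h1 : Continuous fun ρ : ℝ => D l * (2 * ρ) ^ 2 := by fun_prop
    exact ((h1.tendsto 0).eventually (gt_mem_nhds (by simpa using hβ))).filter_mono
      nhdsWithin_le_nhds
  have hbl : ∀ l, C.bl (ι l) = ball (ct A (pt l)) (C.r (ι l)) := fun l => by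
    rw [Cv.bl, (hl l).2.1]
  refine ⟨ρ, P, hρ, by linarith, hP, fun f hf ε hε => ?_⟩
  have h := gpeak1 (T := fun j => {y | ∃ l, ι l = j ∧ y ∈ ball (ct A (pt l)) ρ}) L hk
    (peakx_diff hι hP) (peakx_diff hι hf) (half_lt_self (a := c₀ * δ ^ 2) (by positivity)) hρ
    (fun i j hij y hy hfy => by
      by_cases hj : ∃ l, ι l = j
      · obtain ⟨l, rfl⟩ := hj
        rw [hι.extend_apply, (hl l).1]
        have h1 : y ∈ ball (ct A (pt l)) (R l) :=
          ball_subset_ball (hl l).2.2.2 (hbl l ▸ hy.1)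
        refine le_trans ?_ (hT l y h1).1
        exact mul_le_mul (hcc l) (pow_le_pow_left₀ hδ.le (hov l i hij y hy) 2) (by positivity)
          (hc l).le
      · rw [Function.extend_apply' _ _ _ hj] at hfy
        exact absurd rfl hfy)
    (by
      rintro _ y ⟨l, rfl, hy⟩
      have h1 := mem_ball.1 hy
      obtain ⟨h2, -, h3, h4⟩ := hl l
      refine ⟨hbl l ▸ closedBall_subset_ball' (by linarith), fun w hw => ?_⟩
      rw [hι.extend_apply, h2]
      have h5 : ‖w - ct A (pt l)‖ < 2 * ρ := by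
        have := dist_triangle w y (ct A (pt l))
        rw [← dist_eq_norm]
        linarith [mem_ball.1 hw]
      refine ((hT l w (mem_ball_iff_norm.2 (by linarith))).2.trans ?_).trans (hρD l).le
      exact mul_le_mul_of_nonneg_left (pow_le_pow_left₀ (norm_nonneg _) h5.le 2) (hD l).le) hε
  filter_upwards [h] with m hm
  obtain ⟨σ, hσ⟩ := hm
  refine ⟨σ, fun l y hy => ?_⟩
  have h1 := hσ (ι l) y ⟨l, rfl, hy⟩
  rwa [hι.extend_apply, hι.extend_apply, (hl l).1] at h1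


theorem bpf [T2Space X] [CompactSpace X] (L : Cc A) :
    ∃ (m : ℕ) (t : Finset X) (σ : t → L.Sec m), 1 ≤ m ∧
      ∀ p, ∃ i j, p ∈ (A.e j).source ∧ (σ i).s j (A.e j p) ≠ 0 := by
  choose ρ P hρ _ _ H using fun p : X => gpeak L (q := 1) (pt := fun _ => p)
    (fun a b _ => Subsingleton.elim a b)
  obtain ⟨t, ht⟩ := CompactSpace.elim_nhds_subcover
    (fun p => (A.e (A.ch p)).source ∩ A.e (A.ch p) ⁻¹' ball (ct A p) (ρ p)) fun p =>
      ((A.e (A.ch p)).isOpen_inter_preimage isOpen_ball).mem_nhds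
        ⟨(ch_mem A p).1, mem_ball_self (hρ p)⟩
  obtain ⟨m, hm, h⟩ := ((eventually_ge_atTop 1).and (eventually_all.2 fun p : t =>
    H p (fun _ _ => 1) (fun _ => differentiable_const _) (1 / 2) (by norm_num))).exists
  choose σ hσ using h
  refine ⟨m, t, σ, hm, fun p => ?_⟩
  obtain ⟨x, hx, hp⟩ := mem_iUnion₂.1 (ht.ge (mem_univ p))
  refine ⟨⟨x, hx⟩, A.ch x, hp.1, fun h0 => ?_⟩
  have h1 := hσ ⟨x, hx⟩ 0 _ hp.2
  rw [h0] at h1
  norm_num at h1

end Vale.Agent.P270B
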