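import Vale.Agent.P270B.Stmt
import Vale.Agent.P270B.Peak
import Vale.Agent.P272.F.Z.Atl
import Vale.Agent.P272.F.Z.DD
import Vale.Agent.P272.F.A.Fin

/-! P270: on a compact hyperbolic Kaehler manifold `K + M` is semiample for every nef `M`. -/

open Metric Set Filter Topology Complex
open scoped Manifold ContDiff

noncomputable section

namespace Vale.Agent.P270B

open Vale.Agent.P272 Vale.Agent.P272.K

variable {n : ℕ} {X : Type} [TopologicalSpace X]

theorem posK [T2Space X] [CompactSpace X] [ConnectedSpace X] {A : Atl n X} (hn : 1 ≤ n)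
    (hA : A.Hyp) {ρ : A.Pot} (hρ : ρ.Pos) (v : A.LV) : ∃ v' : A.LV, v'.toPot.Pos := by
  have hP : Asm.PR A := fun θ ρ hρ F B m t h1 h2 ht => by
    obtain ⟨φ, B', h3, h4, x, h5⟩ := perron hn θ F h1 h2
    obtain ⟨ψ, h6, h7⟩ := reg hn θ ρ hρ F h3 h4 ht
    exact ⟨ψ, h6, fun y => le_trans (sub_le_sub_right (h4 y).1 t) (h7 y), x,
      le_trans (sub_le_sub_right h5 t) (h7 x)⟩
  exact Asm.positive hn hP hρ (fun τ => barrier hn τ ρ hρ v)
    (fun _ _ _ he hh h => vsl hn hA ρ hρ v he hh h) fun _ h => nosuper hn v.toPot ρ hρ v h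

theorem hol_chg {e e' : OpenPartialHomeomorph X (E n)} {f : X → ℂ} {p : X} (c : zCp e e')
    (h : p ∈ e.source) (h' : p ∈ e'.source) (hf : DifferentiableAt ℂ (f ∘ e.symm) (e p)) :
    DifferentiableAt ℂ (f ∘ e'.symm) (e' p) := by
  have e1 : (e ∘ e'.symm) (e' p) = e p := by rw [Function.comp_apply, e'.left_inv h']
  rw [← e1] at hf
  refine (hf.comp _ (c p h h')).congr_of_eventuallyEq ((z_ev h h').mono fun y hy => ?_)
  simp only [Function.comp, e.left_inv hy.2]

theorem det_hol {e e' : OpenPartialHomeomorph X (E n)} {p : X} (c : zCp e e')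
    (h : p ∈ e.source) (h' : p ∈ e'.source) :
    DifferentiableAt ℂ ((fun q => (zJ e e' q).det) ∘ e'.symm) (e' p) := by
  refine ((analyticAt_det _).comp (z_an c h h').fderiv).differentiableAt.congr_of_eventuallyEq
    ((z_ev h h').mono fun y hy => ?_)
  simp only [Function.comp, zJ, e'.right_inv hy.1]

variable [ChartedSpace (E n) X] [IsManifold 𝓘(ℂ, E n) ω X]

theorem z_data2 [CompactSpace X] (g : HermMetric n X) (hg : g.IsKahler) (W : X → Set X)
    (hW : ∀ x, IsOpen (W x)) (hm : ∀ x, x ∈ W x) :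
    ∃ (A : Atl n X) (x : Fin A.N → X) (r : Fin A.N → ℝ) (ρ : A.Pot), A.Cz ∧ ρ.Pos ∧
      Nonempty A.LV ∧ (∀ j, ∀ p ∈ (A.e j).source, p ∈ W (x j)) ∧
      (∀ j p, chartAt (E n) (x j) (x j) + r j • A.e j p = chartAt (E n) (x j) p) ∧
      (∀ j y, (A.e j).symm y = (chartAt (E n) (x j)).symm (chartAt (E n) (x j) (x j) + r j • y)) ∧
      ∀ j, ∀ y ∈ (A.e j).target, ∀ a, levi (ρ.u j) y a =
        r j ^ 2 * qf (g.Γ (x j) (chartAt (E n) (x j) (x j) + r j • y)) a := by
  choose u U hU hx hs hu hl using hg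
  obtain ⟨A, hA, h⟩ := z_atl (fun x => U x ∩ ((chartAt (E n) x).target ∩
      (chartAt (E n) x).symm ⁻¹' W x))
    (fun x => (hU x).inter ((chartAt (E n) x).symm.isOpen_inter_preimage (hW x)))
    (fun x => ⟨hx x, mem_chart_target _ x, by
      rw [mem_preimage, (chartAt (E n) x).left_inv (mem_chart_source _ x)]
      exact hm x⟩) fun x => inter_subset_left.trans (hs x)
  choose x r hr he using h
  have tg : ∀ j, ∀ y ∈ (A.e j).target, chartAt (E n) (x j) (x j) + r j • y ∈ U (x j) :=
    fun j y hy => by rw [he] at hy; exact hy.1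
  have sr : ∀ j, ∀ p ∈ (A.e j).source, p ∈ (chartAt (E n) (x j)).source :=
    fun j p hp => by rw [he] at hp; exact hp.1
  have sw : ∀ j, ∀ p ∈ (A.e j).source, p ∈ W (x j) := fun j p hp => by
    rw [he] at hp
    have h1 := hp.2.2.2
    rwa [mem_preimage, (chartAt (E n) (x j)).left_inv hp.1] at h1
  have ap : ∀ j p, chartAt (E n) (x j) (x j) + r j • A.e j p = chartAt (E n) (x j) p :=
    fun j p => by rw [he, zCh_app]
  have jc : ∀ j, ∀ p ∈ (A.e j).source, zJ (chartAt (E n) (x j)) (A.e j) p = r j • (1 : L n) :=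
    fun j p hp => by
      rw [he] at hp ⊢
      exact (zCh_d hp).fderiv
  let Γ : Fin A.N → E n → L n := fun j y => star (r j • (1 : L n)) *
    g.Γ (x j) (chartAt (E n) (x j) (x j) + r j • y) * r j • (1 : L n)
  have q : ∀ j y a, qf (Γ j y) a =
      r j ^ 2 * qf (g.Γ (x j) (chartAt (E n) (x j) (x j) + r j • y)) a := fun j y a => by
    rw [qf_conj]
    simpa using qf_smul (g.Γ (x j) (chartAt (E n) (x j) (x j) + r j • y)) (r j) a
  have pos : ∀ j, ∀ y ∈ (A.e j).target, ∀ a, a ≠ 0 → 0 < qf (Γ j y) a := fun j y hy a ha => by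
    rw [q]
    exact mul_pos (sq_pos_of_ne_zero (hr j)) (g.pos _ _ (hs _ (tg j y hy)) a ha)
  have cmp : ∀ j k p, p ∈ (A.e j).source → p ∈ (A.e k).source →
      Γ k (A.e k p) = star (A.tr j k p) * Γ j (A.e j p) * A.tr j k p := fun j k p hj hk => by
    have h1 := (z_comp (z_jac (x j) (x k)) (hA k (x k)).2 (sr j p hj) (sr k p hk) hk).2
    have h2 := (z_comp (hA j (x j)).2 (A.hol j k) (sr j p hj) hj hk).2
    rw [h1, jc j p hj, jc k p hk] at h2
    simp only [Γ, ap]
    rw [g.compat (x j) (x k) p (sr j p hj) (sr k p hk)]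
    calc _ = star (zJ (chartAt (E n) (x j)) (chartAt (E n) (x k)) p * r k • (1 : L n)) *
          g.Γ (x j) (chartAt (E n) (x j) p) *
          (zJ (chartAt (E n) (x j)) (chartAt (E n) (x k)) p * r k • (1 : L n)) := by
          simp only [star_mul, mul_assoc]
          rfl
      _ = _ := by
          rw [h2]
          simp only [star_mul, mul_assoc]
          rfl
  have lv : ∀ j, ∀ y ∈ (A.e j).target, ∀ a,
      levi (fun y => u (x j) (chartAt (E n) (x j) (x j) + r j • y)) y a = qf (Γ j y) a :=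
    fun j y hy a => by rw [z_levi, hl _ _ (tg j y hy), q]
  refine ⟨A, x, r, ⟨fun j y => u (x j) (chartAt (E n) (x j) (x j) + r j • y),
    fun j => (hu _).comp (by fun_prop) (tg j), fun j k p hj hk a => ?_⟩, hA, fun j y hy a ha => ?_,
    z_lv A Γ (fun j => ?_) pos cmp, sw, ap, fun j y => by rw [he]; rfl,
    fun j y hy a => (lv j y hy a).trans (q j y a)⟩
  · rw [lv k _ ((A.e k).map_source hk), lv j _ ((A.e j).map_source hj), cmp j k p hj hk, qf_conj]
  · exact (pos j y hy a ha).trans_eq (lv j y hy a).symm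
  · exact (contDiffOn_const.mul ((g.smooth _).comp (by fun_prop) fun y hy =>
      hs _ (tg j y hy))).mul contDiffOn_const

theorem semiample [T2Space X] [CompactSpace X] [ConnectedSpace X] (hn : 1 ≤ n)
    (g : HermMetric n X) (hg : g.IsKahler)
    (hy : ∀ f : ℂ → X, MDifferentiable 𝓘(ℂ, ℂ) 𝓘(ℂ, E n) f → ∀ z w, f z = f w)
    (M : LineBundle n X) (hM : M.IsNef g) : AdjSemiample M := by
  obtain ⟨A, x, r, ρ, hA, hρ, ⟨v₀⟩, sw, ap, sy, lv⟩ := z_data2 g hg M.U M.isOpen M.mem
  obtain ⟨v, hv⟩ := posK hn (hA.hyp hy) hρ v₀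
  obtain ⟨C, hC, hle⟩ := ρ.le_pos hv
  obtain ⟨φ, hφ, hs⟩ := hM (1 / (2 * C)) (by positivity)
  have e1 : ∀ j, φ (x j) ∘ (A.e j).symm = fun y =>
      (φ (x j) ∘ (chartAt (E n) (x j)).symm) (chartAt (E n) (x j) (x j) + r j • y) :=
    fun j => funext fun y => by simp only [Function.comp, sy]
  have e2 : ∀ j, ∀ y ∈ (A.e j).target,
      chartAt (E n) (x j) (x j) + r j • y = chartAt (E n) (x j) ((A.e j).symm y) := fun j y hy => by
    rw [← ap j ((A.e j).symm y), (A.e j).right_inv hy]
  have sφ : ∀ j, ∀ y ∈ (A.e j).target, ContDiffAt ℝ ∞ (φ (x j) ∘ (A.e j).symm) y := fun j y hy => by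
    have h1 := (hs _ _ (sw j _ ((A.e j).map_target hy))).1
    rw [← e2 j y hy] at h1
    rw [e1]
    exact ContDiffAt.comp (f := fun y => chartAt (E n) (x j) (x j) + r j • y) y h1 (by fun_prop)
  have sl : ∀ j, ∀ y ∈ (A.e j).target, ContDiffAt ℝ ∞ (v.l j) y := fun j y hy =>
    (v.sm j).contDiffAt ((A.e j).open_target.mem_nhds hy)
  have key : ∀ j, ∀ y ∈ (A.e j).target, ∀ a, levi (v.l j) y a ≤
      2 * levi (fun y => 1 * v.l j y - (-1) * (φ (x j) ∘ (A.e j).symm) y) y a := fun j y hy a => by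
    rw [levi_lin ((sl j y hy).of_le ENat.LEInfty.out) ((sφ j y hy).of_le ENat.LEInfty.out), e1,
      z_levi]
    have h1 := mul_le_mul_of_nonneg_left ((hs _ _ (sw j _ ((A.e j).map_target hy))).2 a)
      (sq_nonneg (r j))
    have h2 := (abs_le.1 (hle j _ a ((A.e j).map_target hy))).2
    rw [(A.e j).right_inv hy, lv j y hy] at h2
    rw [← e2 j y hy] at h1
    have h3 := mul_le_mul_of_nonneg_left h2 (by positivity : 0 ≤ 1 / (2 * C))
    have h4 : 1 / (2 * C) * (C * levi (v.toPot.u j) y a) = levi (v.l j) y a / 2 := by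
      show 1 / (2 * C) * (C * levi (v.l j) y a) = _
      field_simp
    linarith
  let L : Cc A :=
    { t := fun i j p => dt A i j p * M.t (x i) (x j) p
      an := fun {i j l p} hi hj hl => (dt_an hi hj hl).differentiableAt.mul
        (hol_chg (hA l (x i)).2 (M.sub _ (sw i p hi)) hl (M.hol _ _ p (sw i p hi) (sw j p hj)))
      coc := fun {i j l p} hi hj hl => by
        rw [← dt_coc hi hj hl, ← M.coc _ _ _ p (sw i p hi) (sw j p hj) (sw l p hl)]
        ring
      one := fun {i p} hi => by rw [dt_one hi, M.one _ p (sw i p hi), mul_one]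
      h := fun j y => 1 * v.l j y - (-1) * (φ (x j) ∘ (A.e j).symm) y
      sm := fun j y hy => ((contDiffAt_const.mul (sl j y hy)).sub
        (contDiffAt_const.mul (sφ j y hy))).contDiffWithinAt
      cmp := fun j k p hj hk => by
        have h1 : ‖M.t (x j) (x k) p‖ ≠ 0 := fun h0 => by
          have h2 := M.coc _ _ _ p (sw j p hj) (sw k p hk) (sw j p hj)
          rw [norm_eq_zero.1 h0, zero_mul, M.one _ p (sw j p hj)] at h2
          exact zero_ne_one h2
        simp only [Function.comp, (A.e j).left_inv hj, (A.e k).left_inv hk]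
        rw [v.cmp j k p hj hk, hφ _ _ p (sw j p hj) (sw k p hk), norm_mul, mul_pow,
          Real.log_mul (pow_ne_zero 2 (norm_ne_zero_iff.2 (dt_ne hj hk))) (pow_ne_zero 2 h1), dt]
        ring
      pos := fun j y hy a ha => by
        linarith [key j y hy a, show 0 < levi (v.l j) y a from hv j y hy a ha]
      v := v
      le := key }
  obtain ⟨m, t, σ, hm, hσ⟩ := bpf L
  have ind : ∀ (s : L.Sec m) z p j k, p ∈ M.U z → p ∈ (A.e j).source → p ∈ (A.e k).source →
      s.s k (A.e k p) * ((zJ (A.e k) (chartAt (E n) z) p).det * M.t (x k) z p) ^ m =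
        s.s j (A.e j p) * ((zJ (A.e j) (chartAt (E n) z) p).det * M.t (x j) z p) ^ m := by
    intro s z p j k hz hj hk
    rw [s.cmp j k p hj hk, (z_comp (A.hol j k) (hA k z).1 hj hk (M.sub z hz)).2, det_mul',
      ← M.coc _ _ _ p (sw j p hj) (sw k p hk) hz, mul_assoc, ← mul_pow]
    congr 2
    show dt A j k p * M.t (x j) (x k) p * _ = dt A j k p * _ * _
    ring
  let S : L.Sec m → AdjSec M m := fun s =>
    { s := fun z p => s.s (A.ch p) (A.e (A.ch p) p) *
        ((zJ (A.e (A.ch p)) (chartAt (E n) z) p).det * M.t (x (A.ch p)) z p) ^ m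
      hol := fun z p hz => by
        have hj := A.z_ch p
        have hz' := M.sub z hz
        have h1 : DifferentiableAt ℂ ((fun q => s.s (A.ch p) (A.e (A.ch p) q)) ∘
            (chartAt (E n) z).symm) (chartAt (E n) z p) := by
          refine hol_chg (hA (A.ch p) z).1 hj hz' ?_
          refine ((s.hol _).differentiableAt ((A.e _).open_target.mem_nhds
            ((A.e _).map_source hj))).congr_of_eventuallyEq ?_
          filter_upwards [(A.e _).open_target.mem_nhds ((A.e _).map_source hj)] with y hy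
          simp only [Function.comp, (A.e _).right_inv hy]
        have h2 := det_hol (hA (A.ch p) z).1 hj hz'
        have h3 := hol_chg (z_jac (x (A.ch p)) z) (M.sub _ (sw _ p hj)) hz'
          (M.hol _ z p (sw _ p hj) hz)
        refine (h1.mul ((h2.mul h3).pow m)).congr_of_eventuallyEq ?_
        have h4 : ContinuousAt (chartAt (E n) z).symm (chartAt (E n) z p) :=
          (chartAt (E n) z).continuousAt_symm ((chartAt (E n) z).map_source hz')
        have h5 : M.U z ∈ 𝓝 ((chartAt (E n) z).symm (chartAt (E n) z p)) := by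
          rw [(chartAt (E n) z).left_inv hz']
          exact (M.isOpen z).mem_nhds hz
        filter_upwards [z_ev hj hz', h4.eventually h5] with y hy hy'
        exact ind s z _ _ _ hy' hy.2 (A.z_ch _)
      compat := fun z z' p hz hz' => by
        rw [(z_comp (hA _ z).1 (z_jac z z') (A.z_ch p) (M.sub z hz) (M.sub z' hz')).2, det_mul',
          ← M.coc _ _ _ p (sw _ p (A.z_ch p)) hz hz', mul_assoc (s.s _ _), ← mul_pow]
        congr 2
        show _ * (jac n X z z' p).det * _ = _
        ring }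
  refine ⟨m, t.card, fun i => S (σ (t.equivFin.symm i)), hm, fun p => ?_⟩
  obtain ⟨i, j, hj, hi⟩ := hσ p
  refine ⟨t.equivFin i, ?_⟩
  simp only [Equiv.symm_apply_apply]
  refine (ind (σ i) p p j _ (M.mem p) hj (A.z_ch p)).trans_ne (mul_ne_zero hi (pow_ne_zero m
    (mul_ne_zero (z_det (hA j p).1 (hA j p).2 hj (mem_chart_source _ p)) fun h0 => ?_)))
  have h2 := M.coc _ _ _ p (sw j p hj) (M.mem p) (sw j p hj)
  rw [h0, zero_mul, M.one _ p (sw j p hj)] at h2
  exact zero_ne_one h2

end Vale.Agent.P270B
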