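import Vale.Agent.P272.F.StmtC

/-! Statement definitions for P270: holomorphic line bundles, nef, semiample adjoint bundle. -/

open scoped ContDiff

namespace Vale.Agent.P270B

open Vale.Agent.P272

variable (n : ℕ) (X : Type) [TopologicalSpace X] [ChartedSpace (E n) X]

/-- A holomorphic line bundle: it is trivialised on the open neighbourhood `U x` of each point `x`,
with holomorphic transition functions `t x x'` on `U x ∩ U x'`. -/
structure LineBundle where
  U : X → Set X
  isOpen : ∀ x, IsOpen (U x)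
  mem : ∀ x, x ∈ U x
  sub : ∀ x, U x ⊆ (chartAt (E n) x).source
  t : X → X → X → ℂ
  hol : ∀ x x' p, p ∈ U x → p ∈ U x' →
    DifferentiableAt ℂ (t x x' ∘ (chartAt (E n) x).symm) (chartAt (E n) x p)
  coc : ∀ x x' x'' p, p ∈ U x → p ∈ U x' → p ∈ U x'' → t x x' p * t x' x'' p = t x x'' p
  one : ∀ x p, p ∈ U x → t x x p = 1

variable {n X}

/-- The bundle is nef: for every `ε > 0` it has a smooth Hermitian metric `exp (-φ)` whose curvature
form `i ∂∂̄ φ` is at least `-ε g`. -/
def LineBundle.IsNef (M : LineBundle n X) (g : HermMetric n X) : Prop :=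
  ∀ ε : ℝ, 0 < ε → ∃ φ : X → X → ℝ,
    (∀ x x' p, p ∈ M.U x → p ∈ M.U x' → φ x' p = φ x p + Real.log (‖M.t x x' p‖ ^ 2)) ∧
    ∀ x p, p ∈ M.U x → ContDiffAt ℝ ∞ (φ x ∘ (chartAt (E n) x).symm) (chartAt (E n) x p) ∧
      ∀ a, -ε * qf (g.Γ x (chartAt (E n) x p)) a ≤
        levi (φ x ∘ (chartAt (E n) x).symm) (chartAt (E n) x p) a

/-- A holomorphic section of `m (K + M)`: `s x` is its coefficient on `U x`. -/
structure AdjSec (M : LineBundle n X) (m : ℕ) where
  s : X → X → ℂ
  hol : ∀ x p, p ∈ M.U x → DifferentiableAt ℂ (s x ∘ (chartAt (E n) x).symm) (chartAt (E n) x p)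
  compat : ∀ x x' p, p ∈ M.U x → p ∈ M.U x' →
    s x' p = s x p * ((jac n X x x' p).det * M.t x x' p) ^ m

/-- `K + M` is semiample: some positive multiple is generated by its global sections. -/
def AdjSemiample (M : LineBundle n X) : Prop :=
  ∃ (m N : ℕ) (σ : Fin N → AdjSec M m), 1 ≤ m ∧ ∀ p, ∃ i, (σ i).s p p ≠ 0

end Vale.Agent.P270B
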